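import Vale.Agent.P011U.IF
import Vale.Agent.P011UA.A0

/-!
The Chevalley datum of a connected set of nodes.
-/

set_option autoImplicit false
set_option linter.all false

namespace Vale.Agent.P011U

open Matrix Vale.Agent.P011L Vale.Agent.P183CH Vale.Agent.P183CH.Chev

attribute [local instance 100] LieRing.ofAssociativeRing

theorem J_ind {R : RS} (hR : R.Ok) {J : Set (Fin R.r)} {P : R.Q → Prop} (h0 : ∀ j ∈ J, P (R.α j))
    (h1 : ∀ j ∈ J, ∀ γ ∈ R.Φ, P γ → P (R.s j γ)) {γ : R.Q} (hγ : γ ∈ R.Φ) (h : R.In J γ) :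
    P γ := by
  obtain ⟨w, hw, j, hj, rfl⟩ := hR.exists_conj_J hγ h
  obtain ⟨l, hl, rfl⟩ := hR.exists_wd hw
  clear hw hγ h
  induction l with
  | nil => exact h0 j hj
  | cons a l ih =>
    rw [RS.wd_cons, RS.mul_app, hR.sE_apply]
    exact h1 a (hl a List.mem_cons_self) _ (hR.map_mem (RS.wd_mem_W l) (hR.simple j))
      (ih fun i hi => hl i (List.mem_cons_of_mem _ hi))

theorem LJ_eq {R : RS} (hR : R.Ok) {K G : Type} [Field K] [Group G] {Γ : RG R K G} (hΓ : Γ.Ok)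
    (J : Set (Fin R.r)) : LJ Γ J =
      Subgroup.closure {g | ∃ j ∈ J, ∃ t, g = Γ.x (R.α j) t ∨ g = Γ.x (-R.α j) t} := by
  refine le_antisymm ((Subgroup.closure_le _).2 ?_) ((Subgroup.closure_le _).2 ?_)
  · rintro _ ⟨γ, h1, h2, t, rfl⟩
    refine J_ind hR (P := fun γ => ∀ t, Γ.x γ t ∈ Subgroup.closure
      {g | ∃ j ∈ J, ∃ t, g = Γ.x (R.α j) t ∨ g = Γ.x (-R.α j) t}) (fun j hj t => Subgroup.subset_closure ⟨j, hj, t, Or.inl rfl⟩) (fun j hj γ hγ h t => ?_) h2 h1 t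
    obtain ⟨ε, hε⟩ := hΓ.nx j γ hγ
    have hn : Γ.n j ∈ Subgroup.closure
        {g | ∃ j ∈ J, ∃ t, g = Γ.x (R.α j) t ∨ g = Γ.x (-R.α j) t} :=
      mul_mem (mul_mem (Subgroup.subset_closure ⟨j, hj, _, Or.inl rfl⟩)
        (Subgroup.subset_closure ⟨j, hj, _, Or.inr rfl⟩)) (Subgroup.subset_closure ⟨j, hj, _, Or.inl rfl⟩)
    have e : t = ((ε : ℤ) : K) * (((ε : ℤ) : K) * t) := by
      rw [← mul_assoc, ← Int.cast_mul, ← Units.val_mul, Int.units_mul_self]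
      simp
    rw [e, ← (hε _).1]
    exact mul_mem (mul_mem hn (h _)) (inv_mem hn)
  · rintro _ ⟨j, hj, t, rfl | rfl⟩
    · exact RG.x_mem (hR.simple j) (RS.In_α hj) _
    · exact RG.x_mem (hR.neg_mem (hR.simple j)) (RS.In_α hj).neg _

theorem cen_zero {L : Type} [LieRing L] [LieAlgebra ℂ L] {H : LieSubalgebra ℂ L} {m : ℕ}
    (b : LieAlgebra.Basis (Fin m) H) {x : L} (h0 : ∀ y : L, ⁅y, x⁆ = 0) : x = 0 := by
  have := b.isLieAbelian_cartan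
  have h1 : x ∈ H.toLieSubmodule := by
    rw [b.cartan_eq]
    exact (LieModule.mem_genWeightSpace _ _ _).2 fun y => ⟨1, by simpa using h0 y⟩
  have h2 : x ∈ Submodule.span ℂ (Set.range b.h) := b.coe_cartan_eq_span ▸ h1
  obtain ⟨c, rfl⟩ := (Submodule.mem_span_range_iff_exists_fun ℂ).1 h2
  have h3 : (Int.castRingHom ℂ).mapMatrix b.A *ᵥ c = 0 := funext fun j => by
    have := h0 (b.e j)
    rw [← lie_skew, neg_eq_zero, sum_lie] at this
    simp only [smul_lie, b.lie_h_e, ← Int.cast_smul_eq_zsmul ℂ, smul_smul] at this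
    rw [← Finset.sum_smul, smul_eq_zero_iff_left (b.sl2 j).e_ne_zero] at this
    rw [Pi.zero_apply, ← this]
    show ∑ i, (b.A j i : ℂ) * c i = _
    exact Finset.sum_congr rfl fun i _ => mul_comm _ _
  rw [eq_zero_of_mulVec_eq_zero (by
    rw [← RingHom.map_det]; exact Int.cast_ne_zero.2 b.nondegen.det_ne_zero) h3]
  simp

section

variable (D : Chev) {m : ℕ} (ι : Fin m ↪ Fin D.r)

/-- the subalgebra -/
def sL : LieSubalgebra ℂ D.L := LieSubalgebra.lieSpan ℂ D.L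
  (Set.range (fun i => D.b.e (ι i)) ∪ Set.range fun i => D.b.f (ι i))

/-- the upper generators -/
def se (i : Fin m) : sL D ι := ⟨D.b.e (ι i), LieSubalgebra.subset_lieSpan (Or.inl ⟨i, rfl⟩)⟩

/-- the lower generators -/
def sf (i : Fin m) : sL D ι := ⟨D.b.f (ι i), LieSubalgebra.subset_lieSpan (Or.inr ⟨i, rfl⟩)⟩

/-- the coroots -/
def sh (i : Fin m) : sL D ι :=
  ⟨D.b.h (ι i), (D.b.sl2 (ι i)).lie_e_f ▸ (sL D ι).lie_mem (se D ι i).2 (sf D ι i).2⟩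

theorem sub_det : (D.A.submatrix ι ι).det ≠ 0 := fun h => by
  obtain ⟨v, h1, h2⟩ := exists_vecMul_eq_zero_iff.2 h
  have h3 : ∀ i, Function.extend ι v 0 (ι i) = v i := fun i => ι.injective.extend_apply _ _ i
  obtain ⟨i, hi⟩ := exists_pos (D := D) (γ := Function.extend ι v 0) fun e =>
    h1 (funext fun i => by rw [← h3, e]; rfl)
  by_cases e : ∃ j, ι j = i
  · obtain ⟨j, rfl⟩ := e
    have : (Function.extend ι v 0 ᵥ* D.A) (ι j) = (v ᵥ* D.A.submatrix ι ι) j := by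
      refine (Fintype.sum_of_injective ι ι.injective _ _ (fun i hi => ?_) fun i => ?_).symm
      · rw [Function.extend_apply' _ _ _ hi]
        exact zero_mul _
      · rw [h3]
        rfl
    rw [this, h2] at hi
    simp at hi
  · rw [Function.extend_apply' _ _ _ e] at hi
    simp at hi

/-- the basis -/
def sb : LieAlgebra.Basis (Fin m) (LieSubalgebra.lieSpan ℂ (sL D ι) (Set.range (sh D ι))) where
  A := D.A.submatrix ι ι
  h := sh D ι
  e := se D ι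
  f := sf D ι
  cartan_eq_lieSpan := rfl
  span_ef := eq_top_iff.2 fun ⟨x, hx⟩ _ => by
    induction hx using LieSubalgebra.lieSpan_induction with
    | mem u hu =>
      rcases hu with ⟨i, rfl⟩ | ⟨i, rfl⟩
      · exact LieSubalgebra.subset_lieSpan (Or.inl ⟨i, rfl⟩)
      · exact LieSubalgebra.subset_lieSpan (Or.inr ⟨i, rfl⟩)
    | zero => exact zero_mem _
    | add u v _ _ hu hv => exact add_mem (hu trivial) (hv trivial)
    | smul t u _ hu => exact LieSubalgebra.smul_mem _ t (hu trivial)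
    | lie u v _ _ hu hv => exact LieSubalgebra.lie_mem _ (hu trivial) (hv trivial)
  linInd := LinearIndependent.of_comp (sL D ι).incl.toLinearMap (D.b.linInd.comp ι ι.injective)
  nondegen := nondegenerate_iff_det_ne_zero.2 (sub_det D ι)
  sl2 i := ⟨fun e => (D.b.sl2 (ι i)).h_ne_zero (congrArg Subtype.val e),
    Subtype.ext (D.b.sl2 (ι i)).lie_e_f, Subtype.ext (D.b.sl2 (ι i)).lie_h_e_nsmul,
    Subtype.ext (D.b.sl2 (ι i)).lie_h_f_nsmul⟩
  lie_h_h i j := Subtype.ext (D.b.lie_h_h _ _)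
  lie_h_e i j := Subtype.ext (D.b.lie_h_e _ _)
  lie_h_f i j := Subtype.ext (D.b.lie_h_f _ _)
  lie_e_f_ne i j h := Subtype.ext (D.b.lie_e_f_ne _ _ (ι.injective.ne h))

theorem sL_sp (y : sL D ι) : D.φ y ∈ Sp ℂ fun a b =>
    ∃ γ : D.Q, D.R.In (Set.range ι) γ ∧ D.wt a = D.wt b + γ ᵥ* D.A := by
  obtain ⟨x, hx⟩ := y
  show D.φ x ∈ _
  induction hx using LieSubalgebra.lieSpan_induction with
  | mem u hu =>
    rcases hu with ⟨i, rfl⟩ | ⟨i, rfl⟩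
    · rw [φ_e]
      exact Sp.mono (Dg.ct (dg_e _)) fun a b e => ⟨_, RS.In_α (R := D.R) (Set.mem_range_self i), e⟩
    · rw [φ_f]
      exact Sp.mono (Dg.ct (dg_f _)) fun a b e =>
        ⟨_, (RS.In_α (R := D.R) (Set.mem_range_self i)).neg, e⟩
  | zero => rw [map_zero]; exact zero_mem _
  | add u v _ _ hu hv => rw [map_add]; exact add_mem hu hv
  | smul t u _ hu => rw [map_smul]; exact Submodule.smul_mem _ _ hu
  | lie u v _ _ hu hv =>
    have k : ∀ a b c : Fin D.n, (∃ γ : D.Q, D.R.In (Set.range ι) γ ∧ D.wt a = D.wt b + γ ᵥ* D.A) →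
        (∃ γ : D.Q, D.R.In (Set.range ι) γ ∧ D.wt b = D.wt c + γ ᵥ* D.A) →
        ∃ γ : D.Q, D.R.In (Set.range ι) γ ∧ D.wt a = D.wt c + γ ᵥ* D.A :=
      fun a b c ⟨γ, h1, e⟩ ⟨δ, h2, e'⟩ => ⟨γ + δ, h1.add h2, by rw [e, e', add_vecMul]; abel⟩
    rw [D.lie]
    exact sub_mem (Sp.mul hu hv k) (Sp.mul hv hu k)

variable {D ι}

theorem hom_of (I : LieIdeal ℂ (sL D ι)) (N : ℕ) : ∀ x ∈ I, x ≠ 0 →
    (Finset.univ.filter fun p : Fin D.n × Fin D.n => D.φ x p.1 p.2 ≠ 0).card < N →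
    ∃ γ : D.Q, D.R.In (Set.range ι) γ ∧ ∃ y ∈ I, y ≠ 0 ∧ D.φ y ∈ D.Dg ℂ γ := by
  induction N with
  | zero => exact fun _ _ _ h => absurd h (Nat.not_lt_zero _)
  | succ N ih =>
    intro x hx h0 hN
    obtain ⟨a, b, hab⟩ : ∃ a b, D.φ x a b ≠ 0 := by
      by_contra hn
      push Not at hn
      exact h0 (Subtype.ext (D.inj ((Matrix.ext hn).trans (map_zero _).symm)))
    obtain ⟨γ, h1, e⟩ := sL_sp D ι x a b hab
    by_cases h2 : D.φ x ∈ D.Dg ℂ γ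
    · exact ⟨γ, h1, x, hx, h0, h2⟩
    obtain ⟨a', b', hab', h3⟩ : ∃ a' b', D.φ x a' b' ≠ 0 ∧ D.wt a' ≠ D.wt b' + γ ᵥ* D.A := by
      by_contra hn
      push Not at hn
      exact h2 hn
    obtain ⟨δ, h4, e'⟩ := sL_sp D ι x a' b' hab'
    obtain ⟨i, hi⟩ := exists_pos (D := D) (γ := δ - γ) fun e => h3 (sub_eq_zero.1 e ▸ e')
    obtain ⟨j, rfl⟩ : i ∈ Set.range ι := by
      by_contra hn
      rw [Pi.sub_apply, h1 i hn, h4 i hn] at hi
      simp at hi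
    have h5 : ∀ p q, D.φ (⁅sh D ι j, x⁆ - ((γ ᵥ* D.A) (ι j) : ℂ) • x : sL D ι) p q =
        ((D.wt p (ι j) - D.wt q (ι j) - (γ ᵥ* D.A) (ι j) : ℤ) : ℂ) * D.φ x p q := fun p q => by
      show D.φ (⁅D.b.h (ι j), (x : D.L)⁆ - _ • (x : D.L)) p q = _
      rw [map_sub, map_smul, D.lie, D.h_eq]
      simp only [Matrix.sub_apply, diagonal_mul, mul_diagonal, Matrix.smul_apply, smul_eq_mul, wt]
      push_cast
      ring
    refine ih _ (sub_mem (lie_mem_right ℂ _ I (sh D ι j) x hx)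
      (I.smul_mem ((γ ᵥ* D.A) (ι j) : ℂ) hx)) (fun e0 => ?_) (lt_of_lt_of_le
        (Finset.card_lt_card ⟨fun p hp => ?_, fun hs => ?_⟩) (Nat.lt_succ_iff.1 hN))
    · have := h5 a' b'
      rw [e0, e'] at this
      refine mul_ne_zero (Int.cast_ne_zero.2 fun e1 => ?_) hab' (this.symm.trans (by simp))
      rw [Pi.add_apply, add_sub_cancel_left] at e1
      rw [sub_vecMul, Pi.sub_apply (δ ᵥ* D.A), e1] at hi
      simp at hi
    · rw [Finset.mem_filter] at hp ⊢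
      rw [h5] at hp
      exact ⟨hp.1, right_ne_zero_of_mul hp.2⟩
    · have := (Finset.mem_filter.1 (hs (Finset.mem_filter.2 ⟨Finset.mem_univ (a, b), hab⟩))).2
      rw [h5, e] at this
      simp at this

theorem hom_refl (I : LieIdeal ℂ (sL D ι)) (j : Fin m) {γ : D.Q}
    (h : ∃ y ∈ I, y ≠ 0 ∧ D.φ y ∈ D.Dg ℂ γ) :
    ∃ y ∈ I, y ≠ 0 ∧ D.φ y ∈ D.Dg ℂ (D.s (ι j) γ) := by
  obtain ⟨y, h1, h2, h3⟩ := h
  let W : Submodule ℂ (D.Mat ℂ) := I.toSubmodule.map (D.φ ∘ₗ (sL D ι).incl.toLinearMap)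
  have k : ∀ {E : ℕ → D.Mat ℤ} (h : DP E) (z : sL D ι), D.φ z = ct ℂ (E 1) → ∀ (t : ℂ), ∀ M ∈ W,
      Ad (h.exU t) M ∈ W := fun h z hz t M hM => by
    rw [h.Ad_eq]
    refine conj_mem ⟨_, h.nilC t⟩ _ ?_ hM
    rintro _ ⟨u, hu, rfl⟩
    rw [smul_lie, ← hz]
    exact W.smul_mem _ ⟨_, lie_mem_right ℂ _ I z u hu, φ_lie (D := D) z u⟩
  have hN := nice (D := D) (ι j)
  obtain ⟨z, h4, h5⟩ : Ad (mp ℂ (nn (ι j))) (D.φ y) ∈ W := by
    rw [mp_nn, Ad_mul, Ad_mul]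
    exact k _ (se D ι j) (φ_e _) _ _ (k _ (sf D ι j) (φ_f _) _ _ (k _ (se D ι j) (φ_e _) _ _
      ⟨y, h1, rfl⟩))
  have h5 : D.φ z = _ := h5
  refine ⟨z, h4, fun e => h2 (Subtype.ext (D.inj ?_)), h5 ▸ Dg.conj (Sp.map _ hN.s1) (Sp.map _ hN.s2) h3⟩
  rw [← Ad_inv (mp ℂ (nn (ι j)))⁻¹ (D.φ y), inv_inv, ← h5, e]
  simp

theorem sub_simple (hm : 0 < m) (hc : ∀ (P : Fin m → Prop) (i j : Fin m), P i →
    (∀ i j, P i → D.A (ι j) (ι i) ≠ 0 → P j) → P j) : LieAlgebra.IsSimple ℂ (sL D ι) := by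
  refine ⟨fun I => or_iff_not_imp_left.2 fun hI => ?_, fun h => ((sb D ι).sl2 ⟨0, hm⟩).h_ne_zero
    (((sb D ι).sl2 ⟨0, hm⟩).lie_e_f.symm.trans (h.trivial _ _))⟩
  obtain ⟨x, hx, h0⟩ := (Submodule.ne_bot_iff I.toSubmodule).1 fun e => hI (by
    rw [← LieSubmodule.toSubmodule_inj]; exact e)
  have k1 : ∀ γ : D.Q, γ ≠ 0 → D.R.In (Set.range ι) γ → (∃ y ∈ I, y ≠ 0 ∧ D.φ y ∈ D.Dg ℂ γ) →
      ∃ i, se D ι i ∈ I := fun γ h1 h2 h3 => by
    have h4 : γ ∈ D.R.Φ := by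
      obtain ⟨y, -, h4, h5⟩ := h3
      exact mem_Φ.2 ⟨h1, _, ⟨_, rfl⟩, fun e => h4 (Subtype.ext (D.inj (e.trans (map_zero _).symm))),
        h5⟩
    refine J_ind (R_ok D) (P := fun γ => (∃ y ∈ I, y ≠ 0 ∧ D.φ y ∈ D.Dg ℂ γ) → ∃ i, se D ι i ∈ I)
      ?_ ?_ h4 h2 h3
    · rintro _ ⟨j, rfl⟩ ⟨y, h5, h6, h7⟩
      obtain ⟨c, hc⟩ := (rt_simple (ι j)).1.one _ ⟨_, rfl⟩ h7
      have e : y = c • se D ι j := Subtype.ext (D.inj (by
        rw [hc, ← φ_e, ← map_smul]; rfl))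
      have h8 : c ≠ 0 := fun e' => h6 (by rw [e, e', zero_smul])
      exact ⟨j, by simpa [e, h8] using I.smul_mem c⁻¹ h5⟩
    · rintro _ ⟨j, rfl⟩ γ - ih h
      exact ih (s_s (ι j) γ ▸ hom_refl I j h)
  obtain ⟨i, hi⟩ : ∃ i, se D ι i ∈ I := by
    obtain ⟨γ, h1, y, h2, h3, h4⟩ := hom_of I _ x hx h0 (Nat.lt_succ_self _)
    by_cases e : γ = 0
    swap
    · exact k1 γ e h1 ⟨y, h2, h3, h4⟩
    subst e
    by_contra hn
    refine h3 (cen_zero (sb D ι) fun z => ?_)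
    have hz : z ∈ LieSubalgebra.lieSpan ℂ _ (Set.range (se D ι) ∪ Set.range (sf D ι)) :=
      (sb D ι).span_ef.ge trivial
    induction hz using LieSubalgebra.lieSpan_induction with
    | mem u hu =>
      by_contra h5
      rcases hu with ⟨i, rfl⟩ | ⟨i, rfl⟩
      · refine hn (k1 _ (α_ne (ι i)) (RS.In_α (R := D.R) ⟨i, rfl⟩)
          ⟨_, lie_mem_right ℂ _ I _ y h2, h5, ?_⟩)
        have := Dg.lie (φ_e (ι i) ▸ Dg.ct (k := ℂ) (dg_e (ι i))) h4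
        rw [add_zero, ← φ_lie] at this
        exact this
      · refine hn (k1 _ (neg_ne_zero.2 (α_ne (ι i))) (RS.In_α (R := D.R) (Set.mem_range_self i)).neg
          ⟨_, lie_mem_right ℂ _ I _ y h2, h5, ?_⟩)
        have := Dg.lie (φ_f (ι i) ▸ Dg.ct (k := ℂ) (dg_f (ι i))) h4
        rw [add_zero, ← φ_lie] at this
        exact this
    | zero => simp
    | add u v _ _ hu hv => rw [add_lie, hu, hv, add_zero]
    | smul t u _ hu => rw [smul_lie, hu, smul_zero]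
    | lie u v _ _ hu hv => rw [lie_lie, hu, hv]; simp
  have k2 : ∀ i, se D ι i ∈ I → sh D ι i ∈ I := fun i hi =>
    (congrArg (· ∈ I) ((sb D ι).sl2 i).lie_e_f).mp (lie_mem_left ℂ _ I _ _ hi)
  have k3 : ∀ (a : ℤ) (z : sL D ι), a ≠ 0 → a • z ∈ I → z ∈ I := fun a z h1 h2 => by
    have h3 : (a : ℂ) ≠ 0 := Int.cast_ne_zero.2 h1
    simpa [← Int.cast_smul_eq_zsmul ℂ, h3] using I.smul_mem (a : ℂ)⁻¹ h2
  have k4 : ∀ j, se D ι j ∈ I := fun j => hc (fun j => se D ι j ∈ I) i j hi fun i j h1 h2 =>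
    k3 _ _ h2 ((congrArg (· ∈ I) ((sb D ι).lie_h_e j i)).mp (lie_mem_left ℂ _ I _ _ (k2 i h1)))
  have k5 : ∀ j, sf D ι j ∈ I := fun j => k3 (-D.A (ι j) (ι j)) _ (by rw [Chev.diag]; norm_num)
    ((congrArg (· ∈ I) ((sb D ι).lie_h_f j j)).mp (lie_mem_left ℂ _ I _ _ (k2 j (k4 j))))
  refine eq_top_iff.2 fun z _ => ?_
  refine (LieSubalgebra.lieSpan_le (K := I.toLieSubalgebra ℂ _)).2 ?_ ((sb D ι).span_ef.ge trivial)
  rintro _ (⟨j, rfl⟩ | ⟨j, rfl⟩)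
  · exact k4 j
  · exact k5 j

variable (D ι) in
/-- the datum of a connected set of nodes -/
def subD (h : LieAlgebra.IsSimple ℂ (sL D ι)) : Chev where
  n := D.n
  r := m
  L := sL D ι
  simple := h
  H := _
  b := sb D ι
  φ := D.φ ∘ₗ (sL D ι).incl.toLinearMap
  inj := D.inj.comp Subtype.val_injective
  lie u v := D.lie u v
  μ i := D.μ (ι i)
  E i := D.E (ι i)
  F i := D.F (ι i)
  h_eq i := D.h_eq (ι i)
  e_pow i := D.e_pow (ι i)
  f_pow i := D.f_pow (ι i)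

theorem subD_sc (h : LieAlgebra.IsSimple ℂ (sL D ι)) (hD : SC D) : SC (subD D ι h) := by
  have := congrArg (Submodule.map (LinearMap.funLeft ℤ ℤ ι)) hD
  rw [Submodule.map_span, ← Set.range_comp, Submodule.map_top,
    LinearMap.range_eq_top.2 (LinearMap.funLeft_surjective_of_injective ℤ ℤ ι ι.injective)] at this
  exact this

theorem subD_grp (h : LieAlgebra.IsSimple ℂ (sL D ι)) (K : Type) [Field K] :
    (subD D ι h).grp K = (LJ (GG D K) (Set.range ι)).map (D.grp K).subtype := by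
  rw [LJ_eq (R_ok D) GG_ok, MonoidHom.map_closure]
  refine congrArg Subgroup.closure (Set.ext fun g => ⟨?_, ?_⟩)
  · rintro ⟨i, t, e | e⟩
    · exact ⟨_, ⟨_, ⟨i, rfl⟩, t, Or.inl rfl⟩, (GG_e _ t).trans (Units.ext e.symm)⟩
    · exact ⟨_, ⟨_, ⟨i, rfl⟩, t, Or.inr rfl⟩, (GG_f _ t).trans (Units.ext e.symm)⟩
  · rintro ⟨_, ⟨_, ⟨i, rfl⟩, t, rfl | rfl⟩, rfl⟩
    · exact ⟨i, t, Or.inl (congrArg Units.val (GG_e (ι i) t))⟩
    · exact ⟨i, t, Or.inr (congrArg Units.val (GG_f (ι i) t))⟩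

end

theorem sub : SUB := fun D hD m ι hm hc =>
  ⟨subD D ι (sub_simple hm hc), Equiv.refl _, subD_sc _ hD, fun _ _ => rfl, fun K _ =>
    ⟨MulEquiv.subgroupCongr (subD_grp _ K), fun i j => ⟨MvPolynomial.X (i, j), fun g => by
      rw [MvPolynomial.eval_X]; rfl⟩, fun i j => ⟨MvPolynomial.X (i, j), fun g => by
      rw [MvPolynomial.eval_X]; rfl⟩, fun i u =>
      ⟨(GG_e (D := subD D ι (sub_simple hm hc)) i u).trans (GG_e (ι i) u).symm,
        (GG_f (D := subD D ι (sub_simple hm hc)) i u).trans (GG_f (ι i) u).symm⟩⟩⟩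

end Vale.Agent.P011U
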